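import Vale.Agent.P192.Growth.Sphere

/-! Finitely presented periodic groups have no infinite orbit with infinitely many bounded spheres. -/

namespace Vale.Agent.Results.P192.BoundedSphereOrbits

theorem result :
    ∀ (G : Type) [Group G], Group.IsFinitelyPresented G →
      ∀ (X : Type) [MulAction G X] (S : Finset G), Subgroup.closure (S : Set G) = ⊤ →
        ∀ (x : X), ¬ {y : X | ∃ g : G, g • x = y}.Finite →
          ∀ (C : ℕ),
            ((∀ N : ℕ, ∃ n, N ≤ n ∧
              ({y : X | ∃ l : List G, l.length ≤ n + 1 ∧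
                  (∀ g ∈ l, g ∈ S ∨ g⁻¹ ∈ S) ∧ l.prod • x = y} \
                {y : X | ∃ l : List G, l.length ≤ n ∧
                  (∀ g ∈ l, g ∈ S ∨ g⁻¹ ∈ S) ∧ l.prod • x = y}).ncard ≤ C) ∨
            (∀ N : ℕ, ∃ n, N ≤ n ∧
              {y : X | ∃ l : List G, l.length ≤ n ∧
                (∀ g ∈ l, g ∈ S ∨ g⁻¹ ∈ S) ∧ l.prod • x = y}.ncard ≤ C * n)) →
            (∃ H : Subgroup G, H.FiniteIndex ∧ ∃ f : H →* Multiplicative ℤ, f ≠ 1) ∧
              ∃ g : G, ¬ IsOfFinOrder g := by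
  intro G _ hfp X _ S hS x hinf C h
  obtain ⟨H, hH, f, hf⟩ := Vale.Agent.P192.Growth.virtually_indicable S hS x C
    (h.elim id fun h => Vale.Agent.P192.Growth.sphere_of_linear S x C h) hinf
  refine ⟨⟨H, hH, f, hf⟩, ?_⟩
  by_contra! h
  refine hf (MonoidHom.ext fun g => ?_)
  have hg : IsOfFinOrder g := by rw [← Submonoid.isOfFinOrder_coe]; exact h g.1
  obtain ⟨n, hn, hn1⟩ := isOfFinOrder_iff_pow_eq_one.mp (MonoidHom.isOfFinOrder f hg)
  have e := congrArg Multiplicative.toAdd hn1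
  simp only [toAdd_pow, toAdd_one, smul_eq_zero] at e
  rcases e with e | e
  · omega
  · rw [MonoidHom.one_apply]
    exact Multiplicative.toAdd.injective e

end Vale.Agent.Results.P192.BoundedSphereOrbits
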