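import Vale.Agent.P192.Main

/-! The finitely presented Burnside question reduces to quotients of the modular group. -/

namespace Vale.Agent.Results.P192.ModularReduction

theorem result :
    ((∀ (G : Type) [Group G], Group.IsFinitelyPresented G → (∀ g : G, IsOfFinOrder g) →
        Finite G) ↔
      ∀ s : Set (FreeGroup (Fin 2)), s.Finite →
        (∀ g : PresentedGroup ({FreeGroup.of 0 ^ 2, FreeGroup.of 1 ^ 3} ∪ s), IsOfFinOrder g) →
        Finite (PresentedGroup ({FreeGroup.of 0 ^ 2, FreeGroup.of 1 ^ 3} ∪ s))) ∧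
    ((∀ (G : Type) [Group G], Group.IsFinitelyPresented G →
        (∃ e : ℕ, 0 < e ∧ ∀ g : G, g ^ e = 1) → Finite G) ↔
      ∀ s : Set (FreeGroup (Fin 2)), s.Finite →
        (∃ e : ℕ, 0 < e ∧
          ∀ g : PresentedGroup ({FreeGroup.of 0 ^ 2, FreeGroup.of 1 ^ 3} ∪ s), g ^ e = 1) →
        Finite (PresentedGroup ({FreeGroup.of 0 ^ 2, FreeGroup.of 1 ^ 3} ∪ s))) :=
  Vale.Agent.P192.burnside_modular

end Vale.Agent.Results.P192.ModularReduction
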